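import Vale.Agent.Lib.P002.G1Defs

/-!
Pool job P002-G1-G (second copy, seat helper19): a vector whose chain frame is invertible for an
upper triangular matrix with distinct diagonal, and back substitution for an upper triangular
matrix with nonzero diagonal.
-/

namespace Vale.Agent.Lib.P002.H19

open Matrix
open Vale.Agent.Lib.P002

theorem exists_jorU_ut_aux : ∀ (k : ℕ) (δ : Fin (k + 1) → ℂ), Function.Injective δ →
    ∀ (T : Matrix (Fin (k + 1)) (Fin (k + 1)) ℂ), (∀ i j, j < i → T i j = 0) →
    (∀ i, T i i = δ i) → ∃ v : Fin (k + 1) → ℂ, (jorU δ T v).det ≠ 0 := by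
  intro k
  induction k with
  | zero =>
    intro δ _ T _ _
    refine ⟨fun _ => 1, ?_⟩
    have h := congrFun (jorU_col_last δ T (fun _ => 1)) 0
    have hl : (Fin.last 0 : Fin (0 + 1)) = 0 := rfl
    rw [hl] at h
    have hd : (jorU δ T (fun _ => 1)).det = jorU δ T (fun _ => 1) 0 0 := Matrix.det_fin_one _
    rw [hd]
    have h' : jorU δ T (fun _ => 1) 0 0 = 1 := h
    rw [h']
    exact one_ne_zero
  | succ k ih =>
    intro δ hδ T hT hTd
    have hN_ut : ∀ i j : Fin (k + 1), j < i →
        (T.submatrix Fin.succ Fin.succ) i j = 0 := by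
      intro i j hij
      exact hT i.succ j.succ (Fin.succ_lt_succ_iff.mpr hij)
    have hNd : ∀ i : Fin (k + 1), (T.submatrix Fin.succ Fin.succ) i i = δ i.succ := by
      intro i
      exact hTd i.succ
    have hTeq : T = bmat (δ 0) (fun j => T 0 j.succ) 0 (T.submatrix Fin.succ Fin.succ) := by
      have h0 := eq_bmat T
      have hc : (fun i : Fin (k + 1) => T i.succ 0) = 0 := by
        funext i
        exact hT i.succ 0 (Fin.succ_pos i)
      rw [hc, hTd 0] at h0
      exact h0
    have hNchar : (T.submatrix Fin.succ Fin.succ).charpoly =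
        ∏ l : Fin (k + 1), (Polynomial.X - Polynomial.C (δ l.succ)) := by
      rw [charpoly_ut hN_ut]
      refine Finset.prod_congr rfl (fun l _ => ?_)
      rw [hNd l]
    obtain ⟨v', hv'⟩ := ih (fun l => δ l.succ) (hδ.comp (Fin.succ_injective _))
      (T.submatrix Fin.succ Fin.succ) hN_ut hNd
    obtain ⟨φ, hφ⟩ := jorU_bmat_zero_zero δ (fun j => T 0 j.succ)
      (T.submatrix Fin.succ Fin.succ) v'
    have hP : (∏ l : Fin (k + 1), (δ 0 - δ l.succ)) ≠ 0 := by
      rw [Finset.prod_ne_zero_iff]
      intro l _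
      rw [sub_ne_zero]
      intro h
      exact (Fin.succ_ne_zero l) (hδ h).symm
    refine ⟨Fin.cons ((1 - φ) / ∏ l : Fin (k + 1), (δ 0 - δ l.succ)) v', ?_⟩
    rw [hTeq, det_jorU_bmat δ (fun j => T 0 j.succ) (T.submatrix Fin.succ Fin.succ) hNchar,
      hφ, mul_div_cancel₀ _ hP]
    have h1 : (1 - φ + φ : ℂ) = 1 := by ring
    rw [h1, one_mul]
    exact hv'

theorem exists_jorU_ut (k : ℕ) (δ : Fin (k + 1) → ℂ) (hδ : Function.Injective δ)
    (T : Matrix (Fin (k + 1)) (Fin (k + 1)) ℂ) (hT : ∀ i j, j < i → T i j = 0)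
    (hTd : ∀ i, T i i = δ i) : ∃ v : Fin (k + 1) → ℂ, (jorU δ T v).det ≠ 0 :=
  exists_jorU_ut_aux k δ hδ T hT hTd

theorem ut_mulVec_tail {n : ℕ} (X : Matrix (Fin n) (Fin n) ℂ) (hX : ∀ i j, j < i → X i j = 0)
    (hXd : ∀ i, X i i ≠ 0) (y : Fin n → ℂ) (c : ℕ)
    (h : ∀ i : Fin n, c < i.val → (X *ᵥ y) i = 0) : ∀ i : Fin n, c < i.val → y i = 0 := by
  have key : ∀ d : ℕ, ∀ i : Fin n, n - i.val ≤ d → c < i.val → y i = 0 := by
    intro d
    induction d with
    | zero =>
      intro i hi _
      have := i.isLt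
      omega
    | succ d ih =>
      intro i hi hc
      have hsum : (X *ᵥ y) i = X i i * y i := by
        change (∑ j, X i j * y j) = X i i * y i
        apply Finset.sum_eq_single i
        · intro j _ hj
          rcases lt_or_gt_of_ne hj with hlt | hgt
          · rw [hX i j hlt, zero_mul]
          · have hv : i.val < j.val := hgt
            have hj' := j.isLt
            rw [ih j (by omega) (by omega), mul_zero]
        · intro hi'
          exact absurd (Finset.mem_univ i) hi'
      have h0 := h i hc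
      rw [hsum] at h0
      exact (mul_eq_zero.mp h0).resolve_left (hXd i)
  intro i hi
  exact key n i (Nat.sub_le _ _) hi

end Vale.Agent.Lib.P002.H19
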