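import Vale.Agent.Lib.P002.G1Defs
import Vale.Agent.Lib.P002.helper17.StepLU
import Vale.Agent.Lib.P002.helper71.LeadLU
import Vale.Agent.Lib.P002.helper33.Numbers

/-!
Pool job P002-G1-H (second copy, seat helper19): a generic quadruple U Lo = l b over the complex
numbers with prescribed diagonals, and the choice of the diagonals.
-/

namespace Vale.Agent.Lib.P002.H19

open Matrix
open Vale.Agent.Lib.P002

/-- The product of the first t values of a family. -/
noncomputable def wpp {n : ℕ} (f : Fin n → ℂ) (t : ℕ) : ℂ :=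
  ∏ j : Fin n, if j.val < t then f j else 1

theorem wpp_ne_zero {n : ℕ} (f : Fin n → ℂ) (hf : ∀ i, f i ≠ 0) (t : ℕ) : wpp f t ≠ 0 := by
  unfold wpp
  rw [Finset.prod_ne_zero_iff]
  intro j _
  by_cases h : j.val < t
  · rw [if_pos h]
    exact hf j
  · rw [if_neg h]
    exact one_ne_zero

theorem wpp_zero {n : ℕ} (f : Fin n → ℂ) : wpp f 0 = 1 := by
  unfold wpp
  refine Finset.prod_eq_one (fun j _ => ?_)
  rw [if_neg (Nat.not_lt_zero _)]

theorem wpp_full {n : ℕ} (f : Fin n → ℂ) (t : ℕ) (ht : n ≤ t) : wpp f t = ∏ j, f j := by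
  unfold wpp
  refine Finset.prod_congr rfl (fun j _ => ?_)
  rw [if_pos (lt_of_lt_of_le j.isLt ht)]

theorem wpp_succ {n : ℕ} (f : Fin n → ℂ) (m : Fin n) (t : ℕ) (ht : t = m.val) :
    wpp f (t + 1) = wpp f t * f m := by
  unfold wpp
  have h1 : ∀ j : Fin n, (if j.val < t + 1 then f j else 1) =
      (if j.val < t then f j else 1) * (if j = m then f j else 1) := by
    intro j
    by_cases hj : j.val < t
    · have hne : j ≠ m := by
        intro h
        rw [h] at hj
        omega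
      rw [if_pos hj, if_pos (Nat.lt_succ_of_lt hj), if_neg hne, mul_one]
    · by_cases hjm : j = m
      · have hlt : j.val < t + 1 := by
          rw [hjm]
          omega
        rw [if_neg hj, if_pos hlt, if_pos hjm, one_mul]
      · have hnlt : ¬ j.val < t + 1 := by
          intro h
          apply hjm
          apply Fin.ext
          omega
        rw [if_neg hj, if_neg hnlt, if_neg hjm, one_mul]
  rw [Finset.prod_congr rfl (fun j _ => h1 j), Finset.prod_mul_distrib, Finset.prod_ite_eq',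
    if_pos (Finset.mem_univ m)]

theorem g1_wit_one (u l p : Fin 1 → ℂ) (hu : ∀ i, u i ≠ 0) (hl : ∀ i, l i ≠ 0)
    (hprod : ∏ i, p i = (∏ i, u i) * ∏ i, l i) :
    ∃ U Lo l' b : Matrix (Fin 1) (Fin 1) ℂ,
      (∀ i j, j < i → U i j = 0) ∧ (∀ i, U i i = u i) ∧ (∀ i j, i < j → Lo i j = 0) ∧
      (∀ i, Lo i i = l i) ∧ (∀ i j, i < j → l' i j = 0) ∧ (∀ i, l' i i = 1) ∧
      (∀ i j, j < i → b i j = 0) ∧ (∀ i, b i i = p i) ∧ U * Lo = l' * b ∧
      g1Gen 1 (U * Lo) ≠ 0 := by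
  have hp0 : p 0 = u 0 * l 0 := by
    rw [Fin.prod_univ_one, Fin.prod_univ_one, Fin.prod_univ_one] at hprod
    exact hprod
  have hsub : ∀ i : Fin 1, i = 0 := fun i => Subsingleton.elim i 0
  have hno : ∀ i j : Fin 1, ¬ (i < j) := by
    intro i j h
    rw [hsub i, hsub j] at h
    exact lt_irrefl _ h
  have hmul : (Matrix.of (fun _ _ => u 0) : Matrix (Fin 1) (Fin 1) ℂ) *
      Matrix.of (fun _ _ => l 0) = 1 * Matrix.of (fun _ _ => p 0) := by
    rw [Matrix.one_mul]
    ext i j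
    rw [Matrix.mul_apply, Fin.sum_univ_one, Matrix.of_apply, Matrix.of_apply, Matrix.of_apply,
      hp0]
  refine ⟨Matrix.of (fun _ _ => u 0), Matrix.of (fun _ _ => l 0), 1,
    Matrix.of (fun _ _ => p 0), ?_, ?_, ?_, ?_, ?_, ?_, ?_, ?_, hmul, ?_⟩
  · intro i j h
    exact absurd h (hno j i)
  · intro i
    rw [hsub i]
    rfl
  · intro i j h
    exact absurd h (hno i j)
  · intro i
    rw [hsub i]
    rfl
  · intro i j h
    exact absurd h (hno i j)
  · intro i
    exact Matrix.one_apply_eq i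
  · intro i j h
    exact absurd h (hno j i)
  · intro i
    rw [hsub i]
    rfl
  · have hg := g1Gen_succ 0 ((Matrix.of (fun _ _ => u 0) : Matrix (Fin 1) (Fin 1) ℂ) *
      Matrix.of (fun _ _ => l 0))
    have hlead : lead 1 1 ((Matrix.of (fun _ _ => u 0) : Matrix (Fin 1) (Fin 1) ℂ) *
        Matrix.of (fun _ _ => l 0)) = u 0 * l 0 := by
      rw [lead_of_le 1 1 _ le_rfl, Matrix.det_fin_one, Matrix.mul_apply, Fin.sum_univ_one,
        Matrix.of_apply, Matrix.of_apply]
    have hg' : g1Gen 1 ((Matrix.of (fun _ _ => u 0) : Matrix (Fin 1) (Fin 1) ℂ) *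
        Matrix.of (fun _ _ => l 0)) = u 0 * l 0 := by
      rw [hg, Finset.range_zero, Finset.prod_empty, g1Gen_zero, mul_one, mul_one,
        Finset.prod_range_one]
      exact hlead
    rw [hg']
    exact mul_ne_zero (hu 0) (hl 0)

theorem g1_wit : ∀ (k : ℕ) (u l p : Fin (k + 1) → ℂ), (∀ i, u i ≠ 0) → (∀ i, l i ≠ 0) →
    (∀ i, p i ≠ 0) → ∏ i, p i = (∏ i, u i) * ∏ i, l i → (1 ≤ k → p 0 ≠ u 0 * l 0) →
    ∃ U Lo l' b : Matrix (Fin (k + 1)) (Fin (k + 1)) ℂ,
      (∀ i j, j < i → U i j = 0) ∧ (∀ i, U i i = u i) ∧ (∀ i j, i < j → Lo i j = 0) ∧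
      (∀ i, Lo i i = l i) ∧ (∀ i j, i < j → l' i j = 0) ∧ (∀ i, l' i i = 1) ∧
      (∀ i j, j < i → b i j = 0) ∧ (∀ i, b i i = p i) ∧ U * Lo = l' * b ∧
      g1Gen (k + 1) (U * Lo) ≠ 0 := by
  intro k
  induction k with
  | zero =>
    intro u l p hu hl _ hprod _
    exact g1_wit_one u l p hu hl hprod
  | succ k ih =>
    intro u l p hu hl hp hprod hp0
    have hu' : (∏ i : Fin (k + 1), u i.succ) ≠ 0 :=
      Finset.prod_ne_zero_iff.mpr (fun i _ => hu i.succ)
    have hl' : (∏ i : Fin (k + 1), l i.succ) ≠ 0 :=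
      Finset.prod_ne_zero_iff.mpr (fun i _ => hl i.succ)
    have hc : (∏ i : Fin (k + 1), u i.succ) * ∏ i : Fin (k + 1), l i.succ ≠ 0 :=
      mul_ne_zero hu' hl'
    have hprod' : p 0 * ∏ i : Fin (k + 1), p i.succ =
        u 0 * l 0 * ((∏ i : Fin (k + 1), u i.succ) * ∏ i : Fin (k + 1), l i.succ) := by
      have h := hprod
      rw [Fin.prod_univ_succ p, Fin.prod_univ_succ u, Fin.prod_univ_succ l] at h
      rw [h]
      ring
    have hqc : ∏ i : Fin (k + 1), p i.succ ≠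
        (∏ i : Fin (k + 1), u i.succ) * ∏ i : Fin (k + 1), l i.succ := by
      intro h
      rw [h] at hprod'
      exact hp0 (Nat.succ_le_succ (Nat.zero_le k)) (mul_right_cancel₀ hc hprod')
    obtain ⟨p', hp'0, hp'prod, hp'ne, hp'f⟩ := H33.g1_numbers k (fun i => p i.succ)
      ((∏ i : Fin (k + 1), u i.succ) * ∏ i : Fin (k + 1), l i.succ) (u 1 * l 1)
      (fun i => hp i.succ) hc hqc
    have hp'f' : 1 ≤ k → p' 0 ≠ u (Fin.succ 0) * l (Fin.succ 0) := by
      intro hk
      rw [Fin.succ_zero_eq_one]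
      exact hp'f hk
    obtain ⟨U', L', l'', b'', hU'ut, hU'd, hL'lt, hL'd, hl''lt, hl''d, hb''ut, hb''d, hq',
      hgen'⟩ := ih (fun i => u i.succ) (fun i => l i.succ) p' (fun i => hu i.succ)
        (fun i => hl i.succ) hp'0 hp'prod hp'f'
    have hPne : ∀ t, wpp p t ≠ 0 := fun t => wpp_ne_zero p hp t
    have hP'ne : ∀ t, wpp p' t ≠ 0 := fun t => wpp_ne_zero p' hp'0 t
    obtain ⟨s, hsval⟩ : ∃ s : ℕ → ℂˣ, ∀ t, ((s t : ℂˣ) : ℂ) = wpp p (t + 1) / wpp p' t :=
      ⟨fun t => Units.mk0 (wpp p (t + 1) / wpp p' t) (div_ne_zero (hPne _) (hP'ne _)),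
        fun t => rfl⟩
    have hdetU : U'.det ≠ 0 := by
      rw [det_ut hU'ut]
      exact Finset.prod_ne_zero_iff.mpr (fun i _ => by rw [hU'd i]; exact hu i.succ)
    have hdetL : L'.det ≠ 0 := by
      rw [det_lt hL'lt]
      exact Finset.prod_ne_zero_iff.mpr (fun i _ => by rw [hL'd i]; exact hl i.succ)
    have hUi : U' * U'⁻¹ = 1 := Matrix.mul_nonsing_inv U' (isUnit_iff_ne_zero.mpr hdetU)
    have hLi : L' * L'⁻¹ = 1 := Matrix.mul_nonsing_inv L' (isUnit_iff_ne_zero.mpr hdetL)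
    have hsk : ((s (k + 1) : ℂˣ) : ℂ) = u 0 * l 0 := by
      rw [hsval, wpp_full p (k + 1 + 1) le_rfl, wpp_full p' (k + 1) le_rfl, hp'prod, hprod,
        Fin.prod_univ_succ u, Fin.prod_univ_succ l]
      field_simp
    obtain ⟨ρ, c', lL, bt, -, -, hlLlt, hlLd, hbtut, hbt0, hbtd, hmul⟩ :=
      H17.g1_step (k + 1) U' L' U'⁻¹ L'⁻¹ l'' b'' hUi hLi hl''lt hl''d hb''ut hq' (u 0) (l 0) s
        (fun _ => 1) (fun i => (s i.val : ℂ) - (s (i.val + 1) : ℂ)) (fun i => one_mul _) hsk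
    have hbtdiag : ∀ i : Fin (k + 1 + 1), bt i i = p i := by
      intro i
      refine Fin.cases ?_ (fun i => ?_) i
      · rw [hbt0, hsval, wpp_zero, div_one, wpp_succ p 0 0 rfl, wpp_zero, one_mul]
      · have h1 : wpp p (i.val + 1 + 1) = wpp p (i.val + 1) * p i.succ :=
          wpp_succ p i.succ (i.val + 1) rfl
        have h2 : wpp p' (i.val + 1) = wpp p' i.val * p' i := wpp_succ p' i i.val rfl
        have hA := hPne (i.val + 1)
        have hB := hP'ne i.val
        have hC := hp'0 i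
        rw [hbtd i, hb''d i, Units.val_mul, Units.val_inv_eq_inv_val, hsval, hsval, h1, h2]
        field_simp
    have hvz : vecMulVec (0 : Fin (k + 1) → ℂ) (0 : Fin (k + 1) → ℂ) = 0 := by
      ext i j
      rw [vecMulVec_apply, Pi.zero_apply, zero_mul, Matrix.zero_apply]
    have hsub : (bmat (u 0) ρ 0 U' * bmat (l 0) 0 c' L').submatrix Fin.succ Fin.succ =
        l'' * b'' := by
      rw [bmat_mul, bmat_submatrix, hvz, zero_add, hq']
    have hleadM : ∀ t, lead t (k + 1 + 1) (bmat (u 0) ρ 0 U' * bmat (l 0) 0 c' L') =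
        wpp p t := by
      intro t
      rw [hmul, H71.lead_mul_lt_ut (k + 1 + 1) t lL bt hlLlt hbtut]
      unfold wpp
      refine Finset.prod_congr rfl (fun j _ => ?_)
      rw [hlLd j, one_mul, hbtdiag j]
    have hleadN : ∀ t, lead t (k + 1)
        ((bmat (u 0) ρ 0 U' * bmat (l 0) 0 c' L').submatrix Fin.succ Fin.succ) = wpp p' t := by
      intro t
      rw [hsub, H71.lead_mul_lt_ut (k + 1) t l'' b'' hl''lt hb''ut]
      unfold wpp
      refine Finset.prod_congr rfl (fun j _ => ?_)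
      rw [hl''d j, one_mul, hb''d j]
    refine ⟨bmat (u 0) ρ 0 U', bmat (l 0) 0 c' L', lL, bt, (bmat_ut ρ U' u hU'ut hU'd).1,
      (bmat_ut ρ U' u hU'ut hU'd).2, (bmat_lt c' L' l hL'lt hL'd).1,
      (bmat_lt c' L' l hL'lt hL'd).2, hlLlt, hlLd, hbtut, hbtdiag, hmul, ?_⟩
    rw [g1Gen_succ]
    refine mul_ne_zero (mul_ne_zero ?_ ?_) ?_
    · rw [Finset.prod_ne_zero_iff]
      intro t _
      rw [hleadM]
      exact hPne _
    · rw [Finset.prod_ne_zero_iff]
      intro i hi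
      rw [Finset.mem_range] at hi
      rw [hleadM, hleadM, hleadN, hleadN]
      have h1 : wpp p (i + 2) = wpp p (i + 1) * p (Fin.succ ⟨i, hi⟩) :=
        wpp_succ p (Fin.succ ⟨i, hi⟩) (i + 1) rfl
      have h2 : wpp p' (i + 1) = wpp p' i * p' ⟨i, hi⟩ := wpp_succ p' ⟨i, hi⟩ i rfl
      have h3 : wpp p (i + 1) * (wpp p' i * p' ⟨i, hi⟩) -
          wpp p (i + 1) * p (Fin.succ ⟨i, hi⟩) * wpp p' i =
          wpp p (i + 1) * wpp p' i * (p' ⟨i, hi⟩ - p (Fin.succ ⟨i, hi⟩)) := by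
        ring
      rw [h1, h2, h3]
      exact mul_ne_zero (mul_ne_zero (hPne _) (hP'ne _)) (sub_ne_zero.mpr (hp'ne ⟨i, hi⟩))
    · rw [hsub, ← hq']
      exact hgen'

theorem g1_wit_diag (k : ℕ) (δ : Fin (k + 1) → ℂ) (s : ℂ) (hs : s * s = 1) :
    ∃ u l : Fin (k + 1) → ℂ, (∀ i, u i ≠ 0) ∧ (∀ i, l i ≠ 0) ∧ ∏ i, u i = s ∧ ∏ i, l i = 1 ∧
      (1 ≤ k → δ 0 * u 0 * l (Fin.rev 0) ≠ u 0 * l 0) := by
  have hs0 : s ≠ 0 := by
    intro h
    rw [h, mul_zero] at hs
    exact zero_ne_one hs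
  have hu0 : ∀ i : Fin (k + 1), (Fin.cons s (fun _ => 1) : Fin (k + 1) → ℂ) i ≠ 0 := by
    intro i
    refine Fin.cases ?_ (fun i => ?_) i
    · rw [Fin.cons_zero]
      exact hs0
    · rw [Fin.cons_succ]
      exact one_ne_zero
  have huprod : ∏ i, (Fin.cons s (fun _ => 1) : Fin (k + 1) → ℂ) i = s := by
    rw [Fin.prod_univ_succ, Fin.cons_zero]
    have : ∀ i : Fin k, (Fin.cons s (fun _ => 1) : Fin (k + 1) → ℂ) i.succ = 1 :=
      fun i => Fin.cons_succ _ _ i
    rw [Finset.prod_congr rfl (fun i _ => this i), Finset.prod_const_one, mul_one]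
  cases k with
  | zero =>
    refine ⟨Fin.cons s (fun _ => 1), fun _ => 1, hu0, fun _ => one_ne_zero, huprod,
      Finset.prod_const_one, ?_⟩
    intro h
    omega
  | succ k =>
    obtain ⟨x, hx0, hxδ⟩ : ∃ x : ℂ, x ≠ 0 ∧ x * x ≠ δ 0 := by
      by_cases h : δ 0 = 1
      · refine ⟨2, two_ne_zero, ?_⟩
        rw [h]
        norm_num
      · refine ⟨1, one_ne_zero, ?_⟩
        rw [one_mul]
        exact fun h' => h h'.symm
    have h0l : (0 : Fin (k + 1 + 1)) ≠ Fin.last (k + 1) := by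
      intro h
      have := congrArg Fin.val h
      rw [Fin.val_zero, Fin.val_last] at this
      omega
    refine ⟨Fin.cons s (fun _ => 1),
      fun i => if i = 0 then x else if i = Fin.last (k + 1) then x⁻¹ else 1, hu0, ?_, huprod,
      ?_, ?_⟩
    · intro i
      beta_reduce
      by_cases h1 : i = 0
      · rw [if_pos h1]
        exact hx0
      · by_cases h2 : i = Fin.last (k + 1)
        · rw [if_neg h1, if_pos h2]
          exact inv_ne_zero hx0
        · rw [if_neg h1, if_neg h2]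
          exact one_ne_zero
    · rw [Finset.prod_eq_mul (0 : Fin (k + 1 + 1)) (Fin.last (k + 1)) h0l]
      · rw [if_pos rfl, if_neg h0l.symm, if_pos rfl]
        exact mul_inv_cancel₀ hx0
      · intro c _ hc
        rw [if_neg hc.1, if_neg hc.2]
      · intro h
        exact absurd (Finset.mem_univ _) h
      · intro h
        exact absurd (Finset.mem_univ _) h
    · intro _
      beta_reduce
      rw [Fin.rev_zero, Fin.cons_zero, if_neg h0l.symm, if_pos rfl, if_pos rfl]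
      intro h
      apply hxδ
      have h2 : δ 0 * s = s * (x * x) := by
        have h3 : δ 0 * s * x⁻¹ * x = s * x * x := by rw [h]
        rw [mul_assoc, inv_mul_cancel₀ hx0, mul_one] at h3
        rw [h3]
        ring
      have h4 : s * δ 0 = s * (x * x) := by
        rw [mul_comm]
        exact h2
      exact (mul_left_cancel₀ hs0 h4).symm

end Vale.Agent.Lib.P002.H19
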